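import Vale.Agent.P022D.Rl.Mat

namespace Vale.Agent.P022E.Rl
export Vale.Agent.P022D.Rl (
  tr_mul_sq len_nil tr_pow_mul tr_pow_dvd sq_eq pow_two_pow tr_two_pow comm_eq one_add_pow
  len_mono len_prod tr_nil len_step)
end Vale.Agent.P022E.Rl
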