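import Vale.Agent.P022D.Rl.Up
import Vale.Agent.P022E.Rl.Mat

namespace Vale.Agent.P022E.Rl
export Vale.Agent.P022D.Rl (
  eqN_mem det_quot two_quot Tame tr_mem unit_one_add comm_mem tr_quot eqN eqU
  add_pow_two_pow lenN one_add_pow_odd tr_mem_unr det_nil lenU)
end Vale.Agent.P022E.Rl

namespace Vale.Agent.P022E.Rl.Tame
export Vale.Agent.P022D.Rl.Tame (
  map mono quot)
end Vale.Agent.P022E.Rl.Tame
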