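import Vale.Agent.P022D.Rl.Defs
import Vale.Agent.P022E.CA.BlkDefs
import Vale.Agent.P022E.PA.Defs
import Vale.Agent.P022E.Rl.Up

namespace Vale.Agent.P022E.Rl
export Vale.Agent.P022D.Rl (
  mT mP ROW BLK eN0 Dat CH0 LOC)
end Vale.Agent.P022E.Rl

namespace Vale.Agent.P022E.Rl.Dat
export Vale.Agent.P022D.Rl.Dat (
  T eg m l s Φ ξ mk f Ram e a' a I I0 n b x Ok)
end Vale.Agent.P022E.Rl.Dat

namespace Vale.Agent.P022E.Rl.Dat.Ok
export Vale.Agent.P022D.Rl.Dat.Ok (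
  const s_ne blk odd ker xi odd' surj mk)
end Vale.Agent.P022E.Rl.Dat.Ok
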