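import Vale.Agent.P022D.Rl.Ch0
import Vale.Agent.P022E.Rl.Defs
import Vale.Agent.P022E.CA.Jac
import Vale.Agent.P022E.CA.Dep

namespace Vale.Agent.P022E.Rl.Ch0
export Vale.Agent.P022D.Rl.Ch0 (
  max_eq reg le_dim det_mem)
end Vale.Agent.P022E.Rl.Ch0

namespace Vale.Agent.P022E.Rl
export Vale.Agent.P022D.Rl (
  ch0)
end Vale.Agent.P022E.Rl
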