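import Vale.Agent.P022D.Rl.Fr
import Vale.Agent.P022E.CA.PtBlk

namespace Vale.Agent.P022E.Rl
export Vale.Agent.P022D.Rl (
  sb_C th two_ps sb dId th_X sb_X eq_of_dim ext_loc sqr th_C ext_mod sqr_apply two_fld
  frob_trick)
end Vale.Agent.P022E.Rl
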